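import Mathlib.Analysis.Complex.RemovableSingularity
import Mathlib.Analysis.Analytic.IsolatedZeros
import Mathlib.Analysis.Calculus.InverseFunctionTheorem.Deriv
import Mathlib.Geometry.Manifold.ContMDiff.Atlas
import Mathlib.Geometry.Manifold.ContMDiff.NormedSpace
import Mathlib.Topology.Compactification.OnePoint.Basic

/-!
Holomorphy of continuous lifts through maps of the local form `(r, t) ↦ (r ^ p, t ^ q)`,
removable singularities of continuous maps `ℂ → X`, rational curves as pairs of entire curves.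
-/

set_option autoImplicit false

namespace Vale.Agent.P300.H874

open scoped Manifold ContDiff Topology
open Set Filter

/-- A continuous function whose `p`-th power has a derivative at `a` and does not vanish at `a`
is differentiable at `a`. -/
theorem differentiableAt_of_pow {f : ℂ → ℂ} {a : ℂ} {p : ℕ} (hp : p ≠ 0)
    (hf : ContinuousAt f a) (h0 : f a ≠ 0) (hg : DifferentiableAt ℂ (fun z => f z ^ p) a) :
    DifferentiableAt ℂ f a := by
  have h1 : HasStrictDerivAt (fun x : ℂ => x ^ p) ((p : ℂ) * f a ^ (p - 1)) (f a) :=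
    hasStrictDerivAt_pow p (f a)
  have h2 : (p : ℂ) * f a ^ (p - 1) ≠ 0 :=
    mul_ne_zero (Nat.cast_ne_zero.2 hp) (pow_ne_zero _ h0)
  have h3 := (h1.to_localInverse h2).hasDerivAt
  have h4 : f =ᶠ[𝓝 a] fun z => h1.localInverse _ _ _ h2 (f z ^ p) :=
    (hf.eventually (h1.eventually_left_inverse h2)).mono fun z hz => hz.symm
  refine DifferentiableAt.congr_of_eventuallyEq ?_ h4
  exact DifferentiableAt.comp (g := h1.localInverse _ _ _ h2) a h3.differentiableAt hg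

/-- (H1) A continuous function with an analytic `p`-th power is analytic. -/
theorem analyticAt_of_pow {f : ℂ → ℂ} {a : ℂ} {p : ℕ} (hp : p ≠ 0)
    (hf : ∀ᶠ z in 𝓝 a, ContinuousAt f z) (hg : AnalyticAt ℂ (fun z => f z ^ p) a) :
    AnalyticAt ℂ f a := by
  rcases hg.eventually_eq_zero_or_eventually_ne_zero with h | h
  · have h1 : f =ᶠ[𝓝 a] fun _ => 0 := h.mono fun z hz => (pow_eq_zero_iff hp).1 hz
    exact analyticAt_const.congr h1.symm
  · refine Complex.analyticAt_of_differentiable_on_punctured_nhds_of_continuousAt ?_ hf.self_of_nhds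
    have h2 : ∀ᶠ z in 𝓝[≠] a, ContinuousAt f z := nhdsWithin_le_nhds hf
    have h3 : ∀ᶠ z in 𝓝[≠] a, AnalyticAt ℂ (fun z => f z ^ p) z :=
      nhdsWithin_le_nhds hg.eventually_analyticAt
    filter_upwards [h, h2, h3] with z hz h4 h5
    exact differentiableAt_of_pow hp h4 (fun h6 => hz (by rw [h6, zero_pow hp]))
      h5.differentiableAt

theorem analyticOnNhd_of_pow {f : ℂ → ℂ} {U : Set ℂ} (hU : IsOpen U) {p : ℕ} (hp : p ≠ 0)
    (hf : ContinuousOn f U) (hg : AnalyticOnNhd ℂ (fun z => f z ^ p) U) : AnalyticOnNhd ℂ f U :=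
  fun a ha => analyticAt_of_pow hp
    (Filter.mem_of_superset (hU.mem_nhds ha) fun _ hz => hf.continuousAt (hU.mem_nhds hz)) (hg a ha)

section Manifold

variable {E : Type*} [NormedAddCommGroup E] [NormedSpace ℂ E]
  {X : Type*} [TopologicalSpace X] [ChartedSpace E X] [IsManifold 𝓘(ℂ, E) ω X]

omit [IsManifold 𝓘(ℂ, E) ω X] in
/-- A continuous curve which is analytic in one chart of the maximal atlas is holomorphic. -/
theorem contMDiffAt_of_chart {e : ℂ → X} {w : ℂ} (he : ContinuousAt e w)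
    {φ : OpenPartialHomeomorph X E} (hφ : φ ∈ IsManifold.maximalAtlas 𝓘(ℂ, E) ω X)
    (hw : e w ∈ φ.source) (h : ContDiffAt ℂ ω (fun z => φ (e z)) w) :
    ContMDiffAt 𝓘(ℂ) 𝓘(ℂ, E) ω e w := by
  have h1 : ContMDiffAt 𝓘(ℂ) 𝓘(ℂ, E) ω (fun z => φ (e z)) w := h.contMDiffAt
  have h2 : ContMDiffAt 𝓘(ℂ, E) 𝓘(ℂ, E) ω φ.symm (φ (e w)) :=
    (contMDiffOn_symm_of_mem_maximalAtlas hφ).contMDiffAt
      (φ.open_target.mem_nhds (φ.map_source hw))
  have h3 : ContMDiffAt 𝓘(ℂ) 𝓘(ℂ, E) ω (fun z => φ.symm (φ (e z))) w :=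
    ContMDiffAt.comp w h2 h1
  refine h3.congr_of_eventuallyEq ?_
  filter_upwards [he.preimage_mem_nhds (φ.open_source.mem_nhds hw)] with z hz
  exact (φ.left_inv hz).symm

omit [IsManifold 𝓘(ℂ, E) ω X] in
/-- (H2) A continuous curve whose chart coordinates have analytic powers is holomorphic: `A` is a
linear coordinate system of the model space. -/
theorem contMDiffAt_of_pow [FiniteDimensional ℂ E] {ι : Type*} [Fintype ι]
    (A : E ≃L[ℂ] (ι → ℂ)) {e : ℂ → X} {w : ℂ}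
    (he : ∀ᶠ z in 𝓝 w, ContinuousAt e z)
    {φ : OpenPartialHomeomorph X E} (hφ : φ ∈ IsManifold.maximalAtlas 𝓘(ℂ, E) ω X)
    (hw : e w ∈ φ.source) {n : ι → ℕ} (hn : ∀ i, n i ≠ 0)
    (h : ∀ i, AnalyticAt ℂ (fun z => A (φ (e z)) i ^ n i) w) :
    ContMDiffAt 𝓘(ℂ) 𝓘(ℂ, E) ω e w := by
  have hs : ∀ᶠ z in 𝓝 w, e z ∈ φ.source :=
    he.self_of_nhds.preimage_mem_nhds (φ.open_source.mem_nhds hw)
  have hc : ∀ᶠ z in 𝓝 w, ContinuousAt (fun z => A (φ (e z))) z := by
    filter_upwards [he, hs] with z h1 h2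
    exact A.continuous.continuousAt.comp (ContinuousAt.comp (φ.continuousAt h2) h1)
  have h3 : ∀ i, AnalyticAt ℂ (fun z => A (φ (e z)) i) w := fun i =>
    analyticAt_of_pow (hn i) (hc.mono fun z hz => (continuous_apply i).continuousAt.comp hz) (h i)
  have h4 : AnalyticAt ℂ (fun z => A (φ (e z))) w := AnalyticAt.pi h3
  have h5 : AnalyticAt ℂ (fun z => A.symm (A (φ (e z)))) w :=
    (A.symm : (ι → ℂ) →L[ℂ] E).analyticAt _ |>.comp h4
  refine contMDiffAt_of_chart he.self_of_nhds hφ hw ?_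
  have : CompleteSpace E := FiniteDimensional.complete ℂ E
  have h6 : (fun z => A.symm (A (φ (e z)))) = fun z => φ (e z) := by
    funext z; exact A.symm_apply_apply _
  rw [h6] at h5
  exact h5.contDiffAt

/-- The two-dimensional case with model `ℂ × ℂ`. -/
theorem contMDiffAt_of_pow_prod {X : Type*} [TopologicalSpace X] [ChartedSpace (ℂ × ℂ) X]
    {e : ℂ → X} {w : ℂ}
    (he : ∀ᶠ z in 𝓝 w, ContinuousAt e z)
    {φ : OpenPartialHomeomorph X (ℂ × ℂ)} (hφ : φ ∈ IsManifold.maximalAtlas 𝓘(ℂ, ℂ × ℂ) ω X)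
    (hw : e w ∈ φ.source) {p q : ℕ} (hp : p ≠ 0) (hq : q ≠ 0)
    (h1 : AnalyticAt ℂ (fun z => (φ (e z)).1 ^ p) w)
    (h2 : AnalyticAt ℂ (fun z => (φ (e z)).2 ^ q) w) :
    ContMDiffAt 𝓘(ℂ) 𝓘(ℂ, ℂ × ℂ) ω e w := by
  have hs : ∀ᶠ z in 𝓝 w, e z ∈ φ.source :=
    he.self_of_nhds.preimage_mem_nhds (φ.open_source.mem_nhds hw)
  have hc : ∀ᶠ z in 𝓝 w, ContinuousAt (fun z => φ (e z)) z := by
    filter_upwards [he, hs] with z h1 h2
    exact ContinuousAt.comp (φ.continuousAt h2) h1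
  have h3 : AnalyticAt ℂ (fun z => (φ (e z)).1) w :=
    analyticAt_of_pow hp (hc.mono fun z hz => continuous_fst.continuousAt.comp hz) h1
  have h4 : AnalyticAt ℂ (fun z => (φ (e z)).2) w :=
    analyticAt_of_pow hq (hc.mono fun z hz => continuous_snd.continuousAt.comp hz) h2
  exact contMDiffAt_of_chart he.self_of_nhds hφ hw (h3.prod h4).contDiffAt

/-- The case with model `Fin 2 → ℂ`. -/
theorem contMDiffAt_of_pow_fin {ι : Type*} [Fintype ι] {X : Type*} [TopologicalSpace X]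
    [ChartedSpace (ι → ℂ) X] {e : ℂ → X} {w : ℂ}
    (he : ∀ᶠ z in 𝓝 w, ContinuousAt e z)
    {φ : OpenPartialHomeomorph X (ι → ℂ)} (hφ : φ ∈ IsManifold.maximalAtlas 𝓘(ℂ, ι → ℂ) ω X)
    (hw : e w ∈ φ.source) {n : ι → ℕ} (hn : ∀ i, n i ≠ 0)
    (h : ∀ i, AnalyticAt ℂ (fun z => φ (e z) i ^ n i) w) :
    ContMDiffAt 𝓘(ℂ) 𝓘(ℂ, ι → ℂ) ω e w :=
  contMDiffAt_of_pow (ContinuousLinearEquiv.refl ℂ (ι → ℂ)) he hφ hw hn h

/-- (H3) Removable singularities: a continuous curve which is holomorphic in a punctured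
neighbourhood of a point is holomorphic at this point. -/
theorem contMDiffAt_of_punctured [CompleteSpace E] {e : ℂ → X} {w : ℂ} (he : ContinuousAt e w)
    (h : ∀ᶠ z in 𝓝[≠] w, ContMDiffAt 𝓘(ℂ) 𝓘(ℂ, E) ω e z) :
    ContMDiffAt 𝓘(ℂ) 𝓘(ℂ, E) ω e w := by
  have hs : ∀ᶠ z in 𝓝 w, e z ∈ (chartAt E (e w)).source :=
    he.preimage_mem_nhds ((chartAt E (e w)).open_source.mem_nhds (mem_chart_source E (e w)))
  refine contMDiffAt_of_chart he (IsManifold.chart_mem_maximalAtlas (e w))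
    (mem_chart_source E (e w)) ?_
  refine AnalyticAt.contDiffAt ?_
  refine Complex.analyticAt_of_differentiable_on_punctured_nhds_of_continuousAt ?_ ?_
  · filter_upwards [h, nhdsWithin_le_nhds hs] with z h1 h2
    have h3 : ContMDiffAt 𝓘(ℂ, E) 𝓘(ℂ, E) ω (chartAt E (e w)) (e z) :=
      contMDiffAt_of_mem_maximalAtlas (IsManifold.chart_mem_maximalAtlas (e w)) h2
    have h4 : ContMDiffAt 𝓘(ℂ) 𝓘(ℂ, E) ω (fun z => chartAt E (e w) (e z)) z :=
      ContMDiffAt.comp z h3 h1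
    exact (contMDiffAt_iff_contDiffAt.1 h4).differentiableAt (by simp)
  · exact ContinuousAt.comp ((chartAt E (e w)).continuousAt (mem_chart_source E (e w))) he

theorem contMDiff_of_finite [CompleteSpace E] {e : ℂ → X} (he : Continuous e) {F : Set ℂ}
    (hF : F.Finite) (h : ∀ z, z ∉ F → ContMDiffAt 𝓘(ℂ) 𝓘(ℂ, E) ω e z) :
    ContMDiff 𝓘(ℂ) 𝓘(ℂ, E) ω e := by
  intro w
  refine contMDiffAt_of_punctured he.continuousAt ?_
  have h1 : (F \ {w})ᶜ ∈ 𝓝 w :=
    (hF.subset sdiff_subset).isClosed.isOpen_compl.mem_nhds fun h => h.2 rfl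
  filter_upwards [nhdsWithin_le_nhds h1, self_mem_nhdsWithin] with z h2 h3
  exact h z fun h4 => h2 ⟨h4, h3⟩

end Manifold

section OnePoint

/-- The coordinate `w ↦ w⁻¹` at infinity. -/
noncomputable def invPt (w : ℂ) : OnePoint ℂ := if w = 0 then OnePoint.infty else ((w⁻¹ : ℂ) : OnePoint ℂ)

theorem continuous_invPt : Continuous invPt := by
  rw [continuous_iff_continuousAt]
  intro w
  by_cases hw : w = 0
  · subst hw
    rw [continuousAt_iff_punctured_nhds]
    have h1 : Tendsto (fun w : ℂ => ((w⁻¹ : ℂ) : OnePoint ℂ)) (𝓝[≠] 0) (𝓝 OnePoint.infty) := by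
      have h2 : Tendsto (fun w : ℂ => w⁻¹) (𝓝[≠] 0) (Bornology.cobounded ℂ) :=
        Filter.tendsto_inv₀_nhdsNE_zero
      have h3 : Tendsto ((↑) : ℂ → OnePoint ℂ) (Filter.coclosedCompact ℂ) (𝓝 OnePoint.infty) :=
        OnePoint.tendsto_coe_infty
      rw [Filter.coclosedCompact_eq_cocompact, ← Metric.cobounded_eq_cocompact] at h3
      exact h3.comp h2
    have h4 : invPt 0 = OnePoint.infty := by simp [invPt]
    rw [h4]
    refine h1.congr' ?_
    filter_upwards [self_mem_nhdsWithin] with z hz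
    have : z ≠ 0 := hz
    simp [invPt, this]
  · have h1 : ContinuousAt (fun w : ℂ => ((w⁻¹ : ℂ) : OnePoint ℂ)) w :=
      OnePoint.continuous_coe.continuousAt.comp (continuousAt_inv₀ hw)
    refine h1.congr ?_
    filter_upwards [isOpen_ne.mem_nhds hw] with z hz
    have : z ≠ 0 := hz
    simp [invPt, this]

/-- (H4) The pair of entire curves of a continuous map of the Riemann sphere. -/
theorem exists_pair {X : Type*} [TopologicalSpace X] (α : C(OnePoint ℂ, X)) :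
    ∃ e e' : C(ℂ, X), (∀ w : ℂ, e w = α w) ∧ (∀ w : ℂ, w ≠ 0 → e' w = α ((w⁻¹ : ℂ) : OnePoint ℂ)) ∧
      e' 0 = α OnePoint.infty ∧ (∀ w : ℂ, w ≠ 0 → e w = e' w⁻¹) ∧
      ∀ w : ℂ, w ≠ 0 → e' w = e w⁻¹ := by
  refine ⟨α.comp ⟨_, OnePoint.continuous_coe⟩, α.comp ⟨_, continuous_invPt⟩, fun w => rfl, ?_, ?_,
    ?_, ?_⟩
  · intro w hw; simp [invPt, hw]
  · simp [invPt]
  · intro w hw; simp [invPt, hw]
  · intro w hw; simp [invPt, hw]

end OnePoint

end Vale.Agent.P300.H874
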