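import Vale.Agent.P300.H749.Cpx
import Vale.Agent.P300.H874.Holo

/-!
Continuous curves in a completed covering whose images in the base are holomorphic are holomorphic.
-/

set_option autoImplicit false
set_option linter.style.haveILetI false

namespace Vale.Agent.P300.H874

open scoped Manifold ContDiff Topology
open Set Filter Cpx

variable {X Y : Type*} [TopologicalSpace X] (A : CpxAtlas X)

/-- (H5), pointwise form. In the chart `A.e i` the map `π : X → Y` is `z ↦ (z k ^ n i k)` in the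
coordinates `κ i` of the base; `β : ℂ → Y` is analytic at `w` in the coordinates `κ i` whenever it
meets the image of the chart `i`. -/
theorem contMDiffAt_of_base {π : X → Y} {n : A.I → Fin 2 → ℕ} (hn : ∀ i k, n i k ≠ 0)
    {κ : A.I → Y → Fin 2 → ℂ}
    (hκ : ∀ i, ∀ x ∈ (A.e i).source, ∀ k, κ i (π x) k = A.e i x k ^ n i k)
    {e : ℂ → X} {w : ℂ} (hc : ∀ᶠ z in 𝓝 w, ContinuousAt e z)
    (hβ : ∀ i, e w ∈ (A.e i).source → ∀ k, AnalyticAt ℂ (fun z => κ i (π (e z)) k) w) :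
    letI := A.charted
    ContMDiffAt 𝓘(ℂ) 𝓘(ℂ, Fin 2 → ℂ) ω e w := by
  letI := A.charted
  haveI := A.isManifold
  obtain ⟨i, hi⟩ := A.cover (e w)
  refine contMDiffAt_of_pow_fin hc
    (IsManifold.subset_maximalAtlas (mem_range_self i) : A.e i ∈ _) hi (hn i) fun k => ?_
  refine (hβ i hi k).congr ?_
  filter_upwards [hc.self_of_nhds.preimage_mem_nhds ((A.e i).open_source.mem_nhds hi)] with z hz
  exact hκ i _ hz k

/-- (H5) Every continuous lift of `w ↦ β (w ^ m)` is holomorphic. -/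
theorem contMDiff_of_base {π : X → Y} {n : A.I → Fin 2 → ℕ} (hn : ∀ i k, n i k ≠ 0)
    {κ : A.I → Y → Fin 2 → ℂ}
    (hκ : ∀ i, ∀ x ∈ (A.e i).source, ∀ k, κ i (π x) k = A.e i x k ^ n i k)
    {β : ℂ → Y}
    (hβ : ∀ i w, β w ∈ π '' (A.e i).source → ∀ k, AnalyticAt ℂ (fun z => κ i (β z) k) w)
    {e : ℂ → X} (he : Continuous e) {m : ℕ} (h : ∀ w, π (e w) = β (w ^ m)) :
    letI := A.charted
    ContMDiff 𝓘(ℂ) 𝓘(ℂ, Fin 2 → ℂ) ω e := by
  letI := A.charted
  intro w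
  refine contMDiffAt_of_base A hn hκ (Eventually.of_forall fun z => he.continuousAt) ?_
  intro i hi k
  have h1 : AnalyticAt ℂ (fun z => κ i (β z) k) (w ^ m) :=
    hβ i (w ^ m) ⟨e w, hi, h w⟩ k
  have h2 : AnalyticAt ℂ (fun z : ℂ => z ^ m) w := analyticAt_id.pow m
  have h3 := h1.comp_of_eq h2 rfl
  refine h3.congr ?_
  filter_upwards with z
  simp only [Function.comp_apply, h z]

/-- The analyticity hypothesis from local node charts: `K i` parametrises an open part of the base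
over the open set `D i` with left inverse `κ i`, and `β` is given locally by analytic curves. -/
theorem analyticAt_coord {D : Set (Fin 2 → ℂ)} {K : (Fin 2 → ℂ) → Y} {κ : Y → Fin 2 → ℂ}
    (hK : ∀ u ∈ D, κ (K u) = u) {β : ℂ → Y} {w : ℂ} {γ : ℂ → Fin 2 → ℂ} (hγ : AnalyticAt ℂ γ w)
    (hD : D ∈ 𝓝 (γ w)) (h : ∀ᶠ z in 𝓝 w, β z = K (γ z)) (k : Fin 2) :
    AnalyticAt ℂ (fun z => κ (β z) k) w := by
  have h1 : AnalyticAt ℂ (fun z => γ z k) w :=
    (ContinuousLinearMap.proj (R := ℂ) (φ := fun _ : Fin 2 => ℂ) k).analyticAt _ |>.comp hγ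
  refine h1.congr ?_
  filter_upwards [h, hγ.continuousAt.preimage_mem_nhds hD] with z hz hz'
  rw [hz, hK _ hz']

/-- A curve of the base which lies on the axis `u k₀ = 0` of a chart and whose other coordinate is
analytic. -/
theorem contMDiff_of_base' {π : X → Y} {n : A.I → Fin 2 → ℕ} (hn : ∀ i k, n i k ≠ 0)
    {D : A.I → Set (Fin 2 → ℂ)} (hD : ∀ i, IsOpen (D i)) {K : A.I → (Fin 2 → ℂ) → Y}
    (hK : ∀ i, InjOn (K i) (D i))
    (hπ : ∀ i, ∀ x ∈ (A.e i).source, (fun k => A.e i x k ^ n i k) ∈ D i ∧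
      π x = K i fun k => A.e i x k ^ n i k)
    {β : ℂ → Y}
    (hβ : ∀ i w, β w ∈ K i '' D i → ∃ γ : ℂ → Fin 2 → ℂ, AnalyticAt ℂ γ w ∧ γ w ∈ D i ∧
      ∀ᶠ z in 𝓝 w, β z = K i (γ z))
    {e : ℂ → X} (he : Continuous e) {m : ℕ} (h : ∀ w, π (e w) = β (w ^ m)) :
    letI := A.charted
    ContMDiff 𝓘(ℂ) 𝓘(ℂ, Fin 2 → ℂ) ω e := by
  classical
  -- left inverses
  let κ : A.I → Y → Fin 2 → ℂ := fun i => Function.invFunOn (K i) (D i)
  have hκ1 : ∀ i, ∀ u ∈ D i, κ i (K i u) = u := fun i u hu => (hK i).leftInvOn_invFunOn hu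
  refine contMDiff_of_base A hn (κ := κ) ?_ ?_ he h
  · intro i x hx k
    obtain ⟨h1, h2⟩ := hπ i x hx
    rw [h2, hκ1 i _ h1]
  · rintro i w ⟨x, hx, hxw⟩ k
    obtain ⟨h1, h2⟩ := hπ i x hx
    obtain ⟨γ, hγ, hγD, hγβ⟩ := hβ i w ⟨_, h1, by rw [← h2, hxw]⟩
    exact analyticAt_coord (hκ1 i) hγ ((hD i).mem_nhds hγD) hγβ k

end Vale.Agent.P300.H874
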