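import Vale.Agent.P300.H874.SphY
import Vale.Agent.P300.H707.SphInst
import Vale.Agent.P300.H242.YVal
import Vale.Agent.P300.H749.Inst

/-!
`hol` for the completed coverings `(D.models yData).Cmp` and helper707's spheres `S b`.
-/

set_option autoImplicit false

namespace Vale.Agent.P300.H874Y

open scoped Manifold ContDiff Topology
open Set Filter H242 H874

theorem S_false_eq : H707.S false = S1 := rfl

theorem S_true_eq : H707.S true = S2 := rfl

theorem holY_Sf (b : Bool) : HolY (H707.S b).f := by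
  cases b
  · exact holY_S1f
  · exact holY_S2f

theorem holY_Sg (b : Bool) : HolY (H707.S b).g := by
  cases b
  · exact holY_S1g
  · exact holY_S2g

section

variable {S X0 : Type} [TopologicalSpace X0] {pr : X0 → H142.U}

theorem proj_chart (D : Mod.Lifts H142.R Mod.kapU pr S) (i : D.I) {z : Fin 2 → ℂ}
    (hz : z ∈ ((Cpx.cpxF D yData).atlas.e i).target) :
    ((z 0 ^ D.pp i, z 1 ^ D.qq i) : ℂ × ℂ) ∈ H142.R ∧
      (D.models yData).proj (((Cpx.cpxF D yData).atlas.e i).symm z) =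
        kap (ow i.1) (z 0 ^ D.pp i, z 1 ^ D.qq i) := by
  have hz' : z ∈ (Cpx.cpxF D yData).Ω i := by
    rwa [(Cpx.cpxF D yData).atlas_target i] at hz
  have h1 : ((z 0 ^ D.pp i, z 1 ^ D.qq i) : ℂ × ℂ) ∈ H142.R := hz'
  refine ⟨h1, ?_⟩
  rw [show ((Cpx.cpxF D yData).atlas.e i).symm z = _ from
    (Cpx.cpxF D yData).atlas_symm i ⟨z, hz'⟩]
  exact (D.models yData).proj_hat _ _

/-- **[HOL]** Every continuous curve in the completed covering over `w ↦ β (w ^ m)` is
holomorphic, if `β` is. -/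
theorem hol_of_holY (D : Mod.Lifts H142.R Mod.kapU pr S) {β : ℂ → Y} (hβ : HolY β) (m : ℕ)
    {e : ℂ → (D.models yData).Cmp} (he : Continuous e)
    (h : ∀ w, (D.models yData).proj (e w) = β (w ^ m)) :
    letI := (Cpx.cpxF D yData).atlas.charted
    ContMDiff 𝓘(ℂ) 𝓘(ℂ, Fin 2 → ℂ) ω e :=
  hol (Cpx.cpxF D yData).atlas (π := (D.models yData).proj) (ν := fun i : D.I => ow i.1)
    (p := fun i : D.I => D.pp i) (q := fun i : D.I => D.qq i)
    (fun i : D.I => (D.ord' i).p0.ne') (fun i : D.I => (D.ord' i).q0.ne')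
    (fun (i : D.I) _ hz => ⟨R_sub_Om (proj_chart D i hz).1, (proj_chart D i hz).2⟩) hβ he h

/-- **[HOL]** for the two spheres of the bad fibre: literally the hypothesis `hol` of helper839's
`end_of_curves`. -/
theorem hol_F (D : Mod.Lifts H142.R Mod.kapU pr S) (b : Bool) (m : ℕ)
    (e : C(ℂ, (D.models yData).Cmp))
    (h : ∀ w, (D.models yData).proj (e w) = (H707.S b).f (w ^ m)) :
    letI := (Cpx.cpxF D yData).atlas.charted
    ContMDiff 𝓘(ℂ) 𝓘(ℂ, Fin 2 → ℂ) ω e :=
  hol_of_holY D (holY_Sf b) m e.continuous h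

theorem hol_F_g (D : Mod.Lifts H142.R Mod.kapU pr S) (b : Bool) (m : ℕ)
    (e : C(ℂ, (D.models yData).Cmp))
    (h : ∀ w, (D.models yData).proj (e w) = (H707.S b).g (w ^ m)) :
    letI := (Cpx.cpxF D yData).atlas.charted
    ContMDiff 𝓘(ℂ) 𝓘(ℂ, Fin 2 → ℂ) ω e :=
  hol_of_holY D (holY_Sg b) m e.continuous h

end

end Vale.Agent.P300.H874Y
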