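import Vale.Agent.P300.H49.Chart
import Vale.Agent.P300.H839.Curve
import Vale.Agent.P300.H874.Over

/-!
The two spheres `D'' = {u = 0}` and `D' = {v = 0}` through the bad node of `M̄₀,₅` (chart of the
identity labelling: points `0, uv, v, 1, ∞` with labels `0, λ, x, 1, ∞`).
-/

set_option autoImplicit false

namespace Vale.Agent.P300.H874

open scoped Manifold ContDiff Topology
open Set Filter M05

/-- two charts at a point of the open part -/
theorem psi_one_eq (ν : Equiv.Perm (Fin 5)) {p : ℂ × ℂ} (hp : p ∈ U0) :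
    psi 1 p = psi ν (cfg ν (vv p)) := by
  rw [psi_cfg (good_vv hp)]
  funext a
  rw [psi, ← CR_vv (a.act 1).2 hp]
  rfl

/-- labelling of the chart at the third point of `D''` -/
def nuB : Equiv.Perm (Fin 5) := ⟨![0, 1, 3, 4, 2], ![0, 1, 4, 2, 3], by decide, by decide⟩

/-- labelling of the chart at the third point of `D'` -/
def nuA : Equiv.Perm (Fin 5) := ⟨![2, 0, 1, 3, 4], ![1, 2, 0, 3, 4], by decide, by decide⟩

theorem cfg_nuB {p : ℂ × ℂ} (hp : p ∈ U0) :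
    cfg nuB (vv p) = (p.1 * (1 - p.2) / (p.1 - 1), 1 / (1 - p.2)) := by
  have h0 : p.1 ≠ 0 := hp 0
  have h1 : p.2 ≠ 0 := hp 1
  have h2 : 1 - p.1 ≠ 0 := hp 2
  have h3 : 1 - p.2 ≠ 0 := hp 3
  have h4 : 1 - p.1 * p.2 ≠ 0 := hp 4
  have h5 : p.1 - 1 ≠ 0 := fun h => h2 (by linear_combination -h)
  have h6 : p.2 - 1 ≠ 0 := fun h => h3 (by linear_combination -h)
  have h7 : p.1 * p.2 - p.2 ≠ 0 := by
    have : p.1 * p.2 - p.2 = p.2 * (p.1 - 1) := by ring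
    rw [this]; exact mul_ne_zero h1 h5
  have h8 : p.2 - p.1 * p.2 ≠ 0 := by
    have : p.2 - p.1 * p.2 = p.2 * (1 - p.1) := by ring
    rw [this]; exact mul_ne_zero h1 h2
  refine Prod.ext ?_ ?_
  · simp only [cfg, rr, nuB, vv, br, Equiv.coe_fn_mk]
    simp
    field_simp
    ring
  · simp only [cfg, ss, nuB, vv, br, Equiv.coe_fn_mk]
    simp
    try field_simp
    try ring

theorem cfg_nuA {p : ℂ × ℂ} (hp : p ∈ U0) :
    cfg nuA (vv p) = (1 / (1 - p.1), p.2 * (1 - p.1) / (p.2 - 1)) := by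
  have h0 : p.1 ≠ 0 := hp 0
  have h1 : p.2 ≠ 0 := hp 1
  have h2 : 1 - p.1 ≠ 0 := hp 2
  have h3 : 1 - p.2 ≠ 0 := hp 3
  have h4 : 1 - p.1 * p.2 ≠ 0 := hp 4
  have h5 : p.1 - 1 ≠ 0 := fun h => h2 (by linear_combination -h)
  have h6 : p.2 - 1 ≠ 0 := fun h => h3 (by linear_combination -h)
  have h7 : p.1 * p.2 - p.2 ≠ 0 := by
    have : p.1 * p.2 - p.2 = p.2 * (p.1 - 1) := by ring
    rw [this]; exact mul_ne_zero h1 h5
  have h8 : p.2 - p.1 * p.2 ≠ 0 := by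
    have : p.2 - p.1 * p.2 = p.2 * (1 - p.1) := by ring
    rw [this]; exact mul_ne_zero h1 h2
  refine Prod.ext ?_ ?_
  · simp only [cfg, rr, nuA, vv, br, Equiv.coe_fn_mk]
    simp
    try field_simp
    try ring
  · simp only [cfg, ss, nuA, vv, br, Equiv.coe_fn_mk]
    simp
    try field_simp
    try ring

theorem eq_of_U0 {f g : ℂ × ℂ → PP} {p : ℂ × ℂ} (hf : ContinuousAt f p) (hg : ContinuousAt g p)
    (h : ∀ x ∈ U0, f x = g x) : f p = g p := by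
  have hne : (𝓝[U0] p).NeBot := mem_closure_iff_nhdsWithin_neBot.1 (dense_U0 p)
  have h1 : Tendsto f (𝓝[U0] p) (𝓝 (f p)) := hf.mono_left nhdsWithin_le_nhds
  have h2 : Tendsto f (𝓝[U0] p) (𝓝 (g p)) :=
    (hg.mono_left nhdsWithin_le_nhds).congr' (by
      filter_upwards [self_mem_nhdsWithin] with x hx using (h x hx).symm)
  exact tendsto_nhds_unique h1 h2

theorem mapB_mem {p : ℂ × ℂ} (h1 : p.1 ≠ 1) (h2 : p.2 ≠ 1) :
    (p.1 * (1 - p.2) / (p.1 - 1), 1 / (1 - p.2)) ∈ DD := by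
  intro h
  have e2 : 1 / (1 - p.2) = 1 := congrArg Prod.snd h
  have e1 : p.1 * (1 - p.2) / (p.1 - 1) = 1 := congrArg Prod.fst h
  have h3 : 1 - p.2 ≠ 0 := sub_ne_zero.2 h2.symm
  have h4 : p.1 - 1 ≠ 0 := sub_ne_zero.2 h1
  rw [div_eq_one_iff_eq h3] at e2
  rw [div_eq_one_iff_eq h4, ← e2] at e1
  have : (1 : ℂ) = 0 := by linear_combination e1
  exact one_ne_zero this

theorem mapA_mem {p : ℂ × ℂ} (h1 : p.1 ≠ 1) (h2 : p.2 ≠ 1) :
    (1 / (1 - p.1), p.2 * (1 - p.1) / (p.2 - 1)) ∈ DD := by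
  intro h
  have e1 : 1 / (1 - p.1) = 1 := congrArg Prod.fst h
  have e2 : p.2 * (1 - p.1) / (p.2 - 1) = 1 := congrArg Prod.snd h
  have h3 : 1 - p.1 ≠ 0 := sub_ne_zero.2 h1.symm
  have h4 : p.2 - 1 ≠ 0 := sub_ne_zero.2 h2
  rw [div_eq_one_iff_eq h3] at e1
  rw [div_eq_one_iff_eq h4, ← e1] at e2
  have : (1 : ℂ) = 0 := by linear_combination e2
  exact one_ne_zero this

theorem psiY_eq_B {p : ℂ × ℂ} (h1 : p.1 ≠ 1) (h2 : p.2 ≠ 1) :
    psiY 1 p = psiY nuB (p.1 * (1 - p.2) / (p.1 - 1), 1 / (1 - p.2)) := by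
  have hp : p ∈ DD := fun h => h1 (congrArg Prod.fst h)
  apply Subtype.ext
  rw [psiY_val 1 hp, psiY_val nuB (mapB_mem h1 h2)]
  refine eq_of_U0 (f := psi 1) (g := fun p => psi nuB (p.1 * (1 - p.2) / (p.1 - 1), 1 / (1 - p.2)))
    (continuousAt_psi 1 hp) ?_ fun x hx => ?_
  · have h3 : 1 - p.2 ≠ 0 := sub_ne_zero.2 h2.symm
    have h4 : p.1 - 1 ≠ 0 := sub_ne_zero.2 h1
    refine ContinuousAt.comp (g := psi nuB)
      (f := fun p : ℂ × ℂ => (p.1 * (1 - p.2) / (p.1 - 1), 1 / (1 - p.2)))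
      (continuousAt_psi nuB (mapB_mem h1 h2)) ?_
    exact ContinuousAt.prodMk (ContinuousAt.div (by fun_prop) (by fun_prop) h4)
      (ContinuousAt.div (by fun_prop) (by fun_prop) h3)
  · rw [psi_one_eq nuB hx, cfg_nuB hx]

theorem psiY_eq_A {p : ℂ × ℂ} (h1 : p.1 ≠ 1) (h2 : p.2 ≠ 1) :
    psiY 1 p = psiY nuA (1 / (1 - p.1), p.2 * (1 - p.1) / (p.2 - 1)) := by
  have hp : p ∈ DD := fun h => h1 (congrArg Prod.fst h)
  apply Subtype.ext
  rw [psiY_val 1 hp, psiY_val nuA (mapA_mem h1 h2)]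
  refine eq_of_U0 (f := psi 1) (g := fun p => psi nuA (1 / (1 - p.1), p.2 * (1 - p.1) / (p.2 - 1)))
    (continuousAt_psi 1 hp) ?_ fun x hx => ?_
  · have h3 : 1 - p.1 ≠ 0 := sub_ne_zero.2 h1.symm
    have h4 : p.2 - 1 ≠ 0 := sub_ne_zero.2 h2
    refine ContinuousAt.comp (g := psi nuA)
      (f := fun p : ℂ × ℂ => (1 / (1 - p.1), p.2 * (1 - p.1) / (p.2 - 1)))
      (continuousAt_psi nuA (mapA_mem h1 h2)) ?_
    exact ContinuousAt.prodMk (ContinuousAt.div (by fun_prop) (by fun_prop) h3)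
      (ContinuousAt.div (by fun_prop) (by fun_prop) h4)
  · rw [psi_one_eq nuA hx, cfg_nuA hx]

theorem mem_DD_fst (z : ℂ) : ((0 : ℂ), z) ∈ DD := fun h => zero_ne_one (congrArg Prod.fst h)

theorem mem_DD_snd (z : ℂ) : (z, (0 : ℂ)) ∈ DD := fun h => zero_ne_one (congrArg Prod.snd h)

theorem continuous_axis_fst (ν : Equiv.Perm (Fin 5)) : Continuous fun z : ℂ => psiY ν (0, z) :=
  (continuousOn_psiY ν).comp_continuous (by fun_prop) mem_DD_fst

theorem continuous_axis_snd (ν : Equiv.Perm (Fin 5)) : Continuous fun z : ℂ => psiY ν (z, 0) :=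
  (continuousOn_psiY ν).comp_continuous (by fun_prop) mem_DD_snd

/-- The spheres `D''` (`false`) and `D'` (`true`) of `M̄₀,₅` through the node `psiY 1 (0, 0)`. -/
noncomputable def sph : Bool → H839.Sph YT
  | false =>
    { f := ⟨fun w => psiY 1 (0, 1 - w), (continuous_axis_fst 1).comp (by fun_prop)⟩
      g := ⟨fun w => psiY nuB (0, w), continuous_axis_fst nuB⟩
      h := by
        intro w hw
        show psiY nuB (0, w) = psiY 1 (0, 1 - w⁻¹)
        have h2 : (1 : ℂ) - w⁻¹ ≠ 1 := by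
          intro h
          exact inv_ne_zero hw (by linear_combination -h)
        rw [psiY_eq_B (p := (0, 1 - w⁻¹)) zero_ne_one h2]
        congr 1
        refine Prod.ext ?_ ?_
        · simp
        · simp }
  | true =>
    { f := ⟨fun w => psiY 1 (1 - w, 0), (continuous_axis_snd 1).comp (by fun_prop)⟩
      g := ⟨fun w => psiY nuA (w, 0), continuous_axis_snd nuA⟩
      h := by
        intro w hw
        show psiY nuA (w, 0) = psiY 1 (1 - w⁻¹, 0)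
        have h2 : (1 : ℂ) - w⁻¹ ≠ 1 := by
          intro h
          exact inv_ne_zero hw (by linear_combination -h)
        rw [psiY_eq_A (p := (1 - w⁻¹, 0)) h2 zero_ne_one]
        congr 1
        refine Prod.ext ?_ ?_
        · simp
        · simp }

theorem sph_false_f (w : ℂ) : (sph false).f w = psiY 1 (0, 1 - w) := rfl
theorem sph_false_g (w : ℂ) : (sph false).g w = psiY nuB (0, w) := rfl
theorem sph_true_f (w : ℂ) : (sph true).f w = psiY 1 (1 - w, 0) := rfl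
theorem sph_true_g (w : ℂ) : (sph true).g w = psiY nuA (w, 0) := rfl

/-- both spheres pass through the node at `1` -/
theorem sph_one (j : Bool) : (sph j).f 1 = psiY 1 (0, 0) := by
  cases j
  · rw [sph_false_f, sub_self]
  · rw [sph_true_f, sub_self]

theorem contMDiff_psiY (ν : Equiv.Perm (Fin 5)) {γ : ℂ → ℂ × ℂ} (hγ : ContDiff ℂ ω γ)
    (h : ∀ w, γ w ∈ DD) : ContMDiff 𝓘(ℂ) 𝓘(ℂ, ℂ × ℂ) ω fun w => psiY ν (γ w) := by
  have h1 : ContMDiffOn 𝓘(ℂ, ℂ × ℂ) 𝓘(ℂ, ℂ × ℂ) ω (chart ν).symm (chart ν).target :=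
    contMDiffOn_symm_of_mem_maximalAtlas
      (IsManifold.subset_maximalAtlas (mem_range_self ν))
  intro w
  exact ContMDiffAt.comp w (h1.contMDiffAt ((chart ν).open_target.mem_nhds (h w)))
    (hγ.contMDiff w)

theorem sph_f_contMDiff (j : Bool) : ContMDiff 𝓘(ℂ) 𝓘(ℂ, ℂ × ℂ) ω (sph j).f := by
  cases j
  · exact contMDiff_psiY 1 (γ := fun w => (0, 1 - w)) (by fun_prop) fun w => mem_DD_fst _
  · exact contMDiff_psiY 1 (γ := fun w => (1 - w, 0)) (by fun_prop) fun w => mem_DD_snd _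

theorem sph_g_contMDiff (j : Bool) : ContMDiff 𝓘(ℂ) 𝓘(ℂ, ℂ × ℂ) ω (sph j).g := by
  cases j
  · exact contMDiff_psiY nuB (γ := fun w => (0, w)) (by fun_prop) fun w => mem_DD_fst _
  · exact contMDiff_psiY nuA (γ := fun w => (w, 0)) (by fun_prop) fun w => mem_DD_snd _

/-- coordinates of a holomorphic curve in `M̄₀,₅` -/
theorem analyticAt_chart {β : ℂ → YT} {w : ℂ} (hβ : ContMDiffAt 𝓘(ℂ) 𝓘(ℂ, ℂ × ℂ) ω β w)
    {ν : Equiv.Perm (Fin 5)} (h : β w ∈ (chart ν).source) :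
    AnalyticAt ℂ (fun z => chart ν (β z)) w := by
  have h1 : ContMDiffAt 𝓘(ℂ, ℂ × ℂ) 𝓘(ℂ, ℂ × ℂ) ω (chart ν) (β w) :=
    contMDiffAt_of_mem_maximalAtlas (IsManifold.subset_maximalAtlas (mem_range_self ν)) h
  have h2 : ContMDiffAt 𝓘(ℂ) 𝓘(ℂ, ℂ × ℂ) ω (fun z => chart ν (β z)) w := ContMDiffAt.comp w h1 hβ
  exact (contMDiffAt_iff_contDiffAt.1 h2).analyticAt

/-- **(H6)** A continuous curve in a completed covering of `M̄₀,₅` over `w ↦ β (w ^ m)`, `β`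
holomorphic, is holomorphic. In the chart `i` the map `π` is `z ↦ psiY (ν i) (z₀ ^ p i, z₁ ^ q i)`. -/
theorem hol {X : Type*} [TopologicalSpace X] (A : Cpx.CpxAtlas X) {π : X → YT}
    {ν : A.I → Equiv.Perm (Fin 5)} {p q : A.I → ℕ} (hp : ∀ i, p i ≠ 0) (hq : ∀ i, q i ≠ 0)
    (hπ : ∀ i, ∀ x ∈ (A.e i).source, ((A.e i x 0 ^ p i, A.e i x 1 ^ q i) : ℂ × ℂ) ∈ DD ∧
      π x = psiY (ν i) (A.e i x 0 ^ p i, A.e i x 1 ^ q i))
    {β : ℂ → YT} (hβ : ContMDiff 𝓘(ℂ) 𝓘(ℂ, ℂ × ℂ) ω β) {m : ℕ}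
    {e : ℂ → X} (he : Continuous e) (h : ∀ w, π (e w) = β (w ^ m)) :
    letI := A.charted
    ContMDiff 𝓘(ℂ) 𝓘(ℂ, Fin 2 → ℂ) ω e := by
  refine contMDiff_of_base A (n := fun i => ![p i, q i])
    (κ := fun i y => ![(chart (ν i) y).1, (chart (ν i) y).2]) ?_ ?_ ?_ he h
  · intro i k
    fin_cases k
    · exact hp i
    · exact hq i
  · intro i x hx k
    obtain ⟨h1, h2⟩ := hπ i x hx
    have h3 : chart (ν i) (π x) = (A.e i x 0 ^ p i, A.e i x 1 ^ q i) := by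
      rw [h2]; exact (chart (ν i)).right_inv h1
    fin_cases k
    · simp [h3]
    · simp [h3]
  · rintro i w ⟨x, hx, hxw⟩ k
    obtain ⟨h1, h2⟩ := hπ i x hx
    have h3 : β w ∈ (chart (ν i)).source := by
      rw [← hxw, h2]; exact (chart (ν i)).map_target h1
    have h4 := analyticAt_chart (hβ w) h3
    fin_cases k
    · exact (ContinuousLinearMap.fst ℂ ℂ ℂ).analyticAt _ |>.comp h4
    · exact (ContinuousLinearMap.snd ℂ ℂ ℂ).analyticAt _ |>.comp h4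

end Vale.Agent.P300.H874
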