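import Vale.Agent.P300.H242.Trans
import Vale.Agent.P300.H707.SphY
import Vale.Agent.P300.H874.Over

/-!
The two spheres through the bad node of helper242's `Y = M̄₀,₅` (helper707's construction) are
holomorphic in the node charts, and continuous lifts of them to a completed covering are
holomorphic.
-/

set_option autoImplicit false

namespace Vale.Agent.P300.H874Y

open scoped Manifold ContDiff Topology
open Set Filter H242 Complex H874

/-- `β : ℂ → Y` is holomorphic: near every point it is an analytic curve in a node chart. -/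
def HolY (β : ℂ → Y) : Prop :=
  ∀ w, ∃ (v : List (Fin 5)) (γ : ℂ → ℂ × ℂ), AnalyticAt ℂ γ w ∧ γ w ∈ Om ∧
    ∀ᶠ z in 𝓝 w, β z = kap v (γ z)

theorem HolY.analyticAt {β : ℂ → Y} (hβ : HolY β) {w : ℂ} {v : List (Fin 5)}
    (h : β w ∈ (chart v).target) : AnalyticAt ℂ (fun z => (chart v).symm (β z)) w := by
  obtain ⟨v', γ, hγ, hγO, hγβ⟩ := hβ w
  have h0 : β w = kap v' (γ w) := hγβ.self_of_nhds
  have h1 : AnalyticAt ℂ (fun q => (chart v).symm (chart v' q)) (γ w) :=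
    analyticAt_trans v' v hγO (by rw [← h0]; exact h)
  refine (h1.comp hγ).congr ?_
  filter_upwards [hγβ] with z hz
  rw [hz]; rfl

/-- **(H6)** A continuous curve in a completed covering of `M̄₀,₅` over `w ↦ β (w ^ m)`, `β`
holomorphic, is holomorphic. In the chart `i` the map `π` is `z ↦ kap (ν i) (z₀ ^ p i, z₁ ^ q i)`. -/
theorem hol {X : Type*} [TopologicalSpace X] (A : Cpx.CpxAtlas X) {π : X → Y}
    {ν : A.I → List (Fin 5)} {p q : A.I → ℕ} (hp : ∀ i, p i ≠ 0) (hq : ∀ i, q i ≠ 0)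
    (hπ : ∀ i, ∀ z ∈ (A.e i).target, ((z 0 ^ p i, z 1 ^ q i) : ℂ × ℂ) ∈ Om ∧
      π ((A.e i).symm z) = kap (ν i) (z 0 ^ p i, z 1 ^ q i))
    {β : ℂ → Y} (hβ : HolY β) {m : ℕ}
    {e : ℂ → X} (he : Continuous e) (h : ∀ w, π (e w) = β (w ^ m)) :
    letI := A.charted
    ContMDiff 𝓘(ℂ) 𝓘(ℂ, Fin 2 → ℂ) ω e := by
  have hπ' : ∀ i, ∀ x ∈ (A.e i).source, ((A.e i x 0 ^ p i, A.e i x 1 ^ q i) : ℂ × ℂ) ∈ Om ∧
      π x = kap (ν i) (A.e i x 0 ^ p i, A.e i x 1 ^ q i) := by
    intro i x hx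
    have := hπ i _ ((A.e i).map_source hx)
    rwa [(A.e i).left_inv hx] at this
  refine contMDiff_of_base A (n := fun i => ![p i, q i])
    (κ := fun i y => ![((chart (ν i)).symm y).1, ((chart (ν i)).symm y).2]) ?_ ?_ ?_ he h
  · intro i k
    fin_cases k
    · exact hp i
    · exact hq i
  · intro i x hx k
    obtain ⟨h1, h2⟩ := hπ' i x hx
    have h3 : (chart (ν i)).symm (π x) = (A.e i x 0 ^ p i, A.e i x 1 ^ q i) := by
      rw [h2]; exact (chart (ν i)).left_inv h1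
    fin_cases k
    · simp [h3]
    · simp [h3]
  · rintro i w ⟨x, hx, hxw⟩ k
    obtain ⟨h1, h2⟩ := hπ' i x hx
    have h3 : β w ∈ (chart (ν i)).target := by
      rw [← hxw, h2]; exact (chart (ν i)).map_source h1
    have h4 := hβ.analyticAt h3
    fin_cases k
    · exact (ContinuousLinearMap.fst ℂ ℂ ℂ).analyticAt _ |>.comp h4
    · exact (ContinuousLinearMap.snd ℂ ℂ ℂ).analyticAt _ |>.comp h4

/-! ### the spheres -/

theorem isCh_kapY (ν : Fin 15) : H707.IsCh io (H142.kap ν) (kapY ν) where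
  cont := (chartY ν).continuousOn.mono R_sub_Om
  eq _ hw h1 h2 := kapY_eq ν (Spec.mem_W_of_mem_R hw h1 h2)

theorem isCh_kapYX : H707.IsCh io H142.kapX kapYX where
  cont := (chart owX).continuousOn.mono R_sub_Om
  eq _ hw h1 h2 := kapYX_eq (Spec.mem_W_of_mem_R hw h1 h2)

/-- The sphere `D'' = D_{0λ}` (`u = 0` in the chart `5`). -/
noncomputable def S2 : H839.Sph Y := (H707.exists_S2 (isCh_kapY 5) isCh_kapYX (isCh_kapY 1)).choose

/-- The sphere `D' = D_{1∞}` (`v = 0` in the chart `5`). -/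
noncomputable def S1 : H839.Sph Y := (H707.exists_S1 (isCh_kapY 5) (isCh_kapY 6) (isCh_kapY 9)).choose

theorem S2_spec : (∀ w, 1 - w ∈ slitPlane → S2.f w = kapYX (0, w)) ∧
    (∀ w, w ∈ slitPlane → S2.f w = kapY 5 (0, 1 - w)) ∧
    (∀ w, 1 - w ∈ slitPlane → S2.g w = kapY 1 (0, w / (w - 1))) ∧
    (∀ w, w ∈ slitPlane → S2.g w = kapY 5 (0, 1 - w⁻¹)) :=
  (H707.exists_S2 (isCh_kapY 5) isCh_kapYX (isCh_kapY 1)).choose_spec

theorem S1_spec : (∀ w, 1 - w ∈ slitPlane → S1.f w = kapY 6 (w, 0)) ∧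
    (∀ w, w ∈ slitPlane → S1.f w = kapY 5 (1 - w, 0)) ∧
    (∀ w, 1 - w ∈ slitPlane → S1.g w = kapY 9 (w / (w - 1), 0)) ∧
    (∀ w, w ∈ slitPlane → S1.g w = kapY 5 (1 - w⁻¹, 0)) :=
  (H707.exists_S1 (isCh_kapY 5) (isCh_kapY 6) (isCh_kapY 9)).choose_spec

/-- `1 - w` or `w` is in the slit plane. -/
theorem slit_or (w : ℂ) : 1 - w ∈ slitPlane ∨ w ∈ slitPlane := by
  by_cases h : w ∈ slitPlane
  · exact Or.inr h
  · left
    rw [mem_slitPlane_iff] at h ⊢
    push Not at h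
    left
    simp only [sub_re, one_re]
    linarith [h.1]

theorem isOpen_slit1 : IsOpen {w : ℂ | 1 - w ∈ slitPlane} :=
  isOpen_slitPlane.preimage (by fun_prop)

theorem axis_fst_mem {v : ℂ} (hv : v ≠ 1) : ((0 : ℂ), v) ∈ Om := by
  refine ⟨?_, ?_, ?_⟩
  · show (1 : ℂ) - 0 ≠ 0
    simp
  · show (1 : ℂ) - v ≠ 0
    exact sub_ne_zero.2 hv.symm
  · show (1 : ℂ) - 0 * v ≠ 0
    simp

theorem axis_snd_mem {v : ℂ} (hv : v ≠ 1) : (v, (0 : ℂ)) ∈ Om := by
  refine ⟨?_, ?_, ?_⟩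
  · show (1 : ℂ) - v ≠ 0
    exact sub_ne_zero.2 hv.symm
  · show (1 : ℂ) - 0 ≠ 0
    simp
  · show (1 : ℂ) - v * 0 ≠ 0
    simp

theorem ne_one_of_slit1 {w : ℂ} (h : 1 - w ∈ slitPlane) : w ≠ 1 := by
  rintro rfl
  rw [sub_self] at h
  exact zero_notMem_slitPlane h

theorem ne_zero_of_slit {w : ℂ} (h : w ∈ slitPlane) : w ≠ 0 := by
  rintro rfl
  exact zero_notMem_slitPlane h

theorem div_sub_one_ne {w : ℂ} (h : w ≠ 1) : w / (w - 1) ≠ 1 := by
  have h1 : w - 1 ≠ 0 := sub_ne_zero.2 h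
  rw [ne_eq, div_eq_one_iff_eq h1]
  intro h2
  have : (1 : ℂ) = 0 := by linear_combination h2
  exact one_ne_zero this

/-- a curve which is given by one-variable functions on the first axis of node charts -/
theorem holY_fst {β : ℂ → Y} (h : ∀ w, ∃ (v : List (Fin 5)) (a : ℂ → ℂ), AnalyticAt ℂ a w ∧ a w ≠ 1 ∧
    ∀ᶠ z in 𝓝 w, β z = kap v (0, a z)) : HolY β := by
  intro w
  obtain ⟨v, a, h1, h2, h3⟩ := h w
  exact ⟨v, fun z => (0, a z), analyticAt_const.prod h1, axis_fst_mem h2, h3⟩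

theorem holY_snd {β : ℂ → Y} (h : ∀ w, ∃ (v : List (Fin 5)) (a : ℂ → ℂ), AnalyticAt ℂ a w ∧ a w ≠ 1 ∧
    ∀ᶠ z in 𝓝 w, β z = kap v (a z, 0)) : HolY β := by
  intro w
  obtain ⟨v, a, h1, h2, h3⟩ := h w
  exact ⟨v, fun z => (a z, 0), h1.prod analyticAt_const, axis_snd_mem h2, h3⟩

theorem analyticAt_div_sub_one {w : ℂ} (h : w ≠ 1) : AnalyticAt ℂ (fun z : ℂ => z / (z - 1)) w :=
  analyticAt_id.div (analyticAt_id.sub analyticAt_const) (sub_ne_zero.2 h)

theorem analyticAt_one_sub_inv {w : ℂ} (h : w ≠ 0) : AnalyticAt ℂ (fun z : ℂ => 1 - z⁻¹) w :=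
  analyticAt_const.sub (analyticAt_id.inv h)

theorem one_sub_inv_ne {w : ℂ} (h : w ≠ 0) : 1 - w⁻¹ ≠ 1 := by
  intro h1
  exact inv_ne_zero h (by linear_combination -h1)

theorem holY_S2f : HolY S2.f := by
  refine holY_fst fun w => ?_
  rcases slit_or w with h | h
  · refine ⟨owX, fun z => z, analyticAt_id, ne_one_of_slit1 h, ?_⟩
    filter_upwards [isOpen_slit1.mem_nhds h] with z hz
    exact S2_spec.1 z hz
  · refine ⟨ow 5, fun z => 1 - z, analyticAt_const.sub analyticAt_id, ?_, ?_⟩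
    · intro h1
      exact ne_zero_of_slit h (by linear_combination -h1)
    filter_upwards [isOpen_slitPlane.mem_nhds h] with z hz
    exact S2_spec.2.1 z hz

theorem holY_S2g : HolY S2.g := by
  refine holY_fst fun w => ?_
  rcases slit_or w with h | h
  · refine ⟨ow 1, fun z => z / (z - 1), analyticAt_div_sub_one (ne_one_of_slit1 h),
      div_sub_one_ne (ne_one_of_slit1 h), ?_⟩
    filter_upwards [isOpen_slit1.mem_nhds h] with z hz
    exact S2_spec.2.2.1 z hz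
  · refine ⟨ow 5, fun z => 1 - z⁻¹, analyticAt_one_sub_inv (ne_zero_of_slit h),
      one_sub_inv_ne (ne_zero_of_slit h), ?_⟩
    filter_upwards [isOpen_slitPlane.mem_nhds h] with z hz
    exact S2_spec.2.2.2 z hz

theorem holY_S1f : HolY S1.f := by
  refine holY_snd fun w => ?_
  rcases slit_or w with h | h
  · refine ⟨ow 6, fun z => z, analyticAt_id, ne_one_of_slit1 h, ?_⟩
    filter_upwards [isOpen_slit1.mem_nhds h] with z hz
    exact S1_spec.1 z hz
  · refine ⟨ow 5, fun z => 1 - z, analyticAt_const.sub analyticAt_id, ?_, ?_⟩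
    · intro h1
      exact ne_zero_of_slit h (by linear_combination -h1)
    filter_upwards [isOpen_slitPlane.mem_nhds h] with z hz
    exact S1_spec.2.1 z hz

theorem holY_S1g : HolY S1.g := by
  refine holY_snd fun w => ?_
  rcases slit_or w with h | h
  · refine ⟨ow 9, fun z => z / (z - 1), analyticAt_div_sub_one (ne_one_of_slit1 h),
      div_sub_one_ne (ne_one_of_slit1 h), ?_⟩
    filter_upwards [isOpen_slit1.mem_nhds h] with z hz
    exact S1_spec.2.2.1 z hz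
  · refine ⟨ow 5, fun z => 1 - z⁻¹, analyticAt_one_sub_inv (ne_zero_of_slit h),
      one_sub_inv_ne (ne_zero_of_slit h), ?_⟩
    filter_upwards [isOpen_slitPlane.mem_nhds h] with z hz
    exact S1_spec.2.2.2 z hz

/-- The two spheres through the bad node: `false` is `D''`, `true` is `D'`. -/
noncomputable def SS : Bool → H839.Sph Y
  | false => S2
  | true => S1

theorem SS_one (j : Bool) : (SS j).f 1 = kapY 5 (0, 0) := by
  cases j
  · show S2.f 1 = _
    rw [S2_spec.2.1 1 one_mem_slitPlane, sub_self]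
  · show S1.f 1 = _
    rw [S1_spec.2.1 1 one_mem_slitPlane, sub_self]

theorem holY_SSf (j : Bool) : HolY (SS j).f := by
  cases j
  · exact holY_S2f
  · exact holY_S1f

theorem holY_SSg (j : Bool) : HolY (SS j).g := by
  cases j
  · exact holY_S2g
  · exact holY_S1g

end Vale.Agent.P300.H874Y
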